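import Vale.Agent.P039.H744.Tree
import Mathlib.LinearAlgebra.Dimension.Constructions
import Mathlib.LinearAlgebra.FiniteDimensional.Basic
import Mathlib.Algebra.Order.BigOperators.Ring.Finset

/-! Step 1, second half: the complement of the perfect matching is one cycle. -/

namespace Vale.Agent.P039.H744

open Finset Vale.Agent.P039.Bn

variable {B W V : Type} {M : PMap B W V}

/-- A set of vertices of the cubic graph which is closed for the edges outside the matching `m`. -/
def Clo (M : PMap B W V) (m : B → Fin 3) (S : Set B) (T : Set W) : Prop :=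
  ∀ b j, j ≠ m b → (b ∈ S ↔ M.e j b ∈ T)

/-- the black vertices of the component of `b0` -/
def CB (M : PMap B W V) (m : B → Fin 3) (b0 : B) : Set B :=
  {b | ∀ S T, Clo M m S T → b0 ∈ S → b ∈ S}

/-- the white vertices of the component of `b0` -/
def CW (M : PMap B W V) (m : B → Fin 3) (b0 : B) : Set W :=
  {w | ∀ S T, Clo M m S T → b0 ∈ S → w ∈ T}

theorem clo_C (m : B → Fin 3) (b0 : B) : Clo M m (CB M m b0) (CW M m b0) := by
  intro b j hj
  constructor
  · intro h S T hc h0
    exact (hc b j hj).1 (h S T hc h0)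
  · intro h S T hc h0
    exact (hc b j hj).2 (h S T hc h0)

theorem mem_CB (m : B → Fin 3) (b0 : B) : b0 ∈ CB M m b0 := fun _ _ _ h => h

open Classical in
/-- extension by zero -/
noncomputable def ex {α : Type} (P : α → Prop) (x : {a // P a} → ℚ) (a : α) : ℚ :=
  if h : P a then x ⟨a, h⟩ else 0

theorem ex_add {α : Type} (P : α → Prop) (x y : {a // P a} → ℚ) (a : α) :
    ex P (x + y) a = ex P x a + ex P y a := by
  unfold ex; split_ifs <;> simp

theorem ex_smul {α : Type} (P : α → Prop) (r : ℚ) (x : {a // P a} → ℚ) (a : α) :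
    ex P (r • x) a = r * ex P x a := by
  unfold ex; split_ifs <;> simp

theorem ex_of {α : Type} {P : α → Prop} (x : {a // P a} → ℚ) {a : α} (h : P a) :
    ex P x a = x ⟨a, h⟩ := by
  unfold ex; rw [dif_pos h]

theorem ex_not {α : Type} {P : α → Prop} (x : {a // P a} → ℚ) {a : α} (h : ¬ P a) :
    ex P x a = 0 := by
  unfold ex; rw [dif_neg h]

/-- gradients of functions on the faces are orthogonal to gradients of functions on the vertices -/
theorem orth [Fintype B] [Fintype W] (H : V → ℚ) (Z : B → ℚ) (Z' : W → ℚ) :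
    ∑ b : B, ∑ j : Fin 3, (H (M.c (j + 2) b) - H (M.c (j + 1) b)) * (Z b - Z' (M.e j b)) = 0 := by
  have h1 : ∑ b : B, ∑ j : Fin 3, (H (M.c (j + 2) b) - H (M.c (j + 1) b)) * Z b = 0 := by
    apply Finset.sum_eq_zero
    intro b _
    rw [← Finset.sum_mul, Fin.sum_univ_three]
    have a1 : (0 : Fin 3) + 1 = 1 := rfl
    have a2 : (0 : Fin 3) + 2 = 2 := rfl
    have a3 : (1 : Fin 3) + 1 = 2 := rfl
    have a4 : (1 : Fin 3) + 2 = 0 := rfl
    have a5 : (2 : Fin 3) + 1 = 0 := rfl
    have a6 : (2 : Fin 3) + 2 = 1 := rfl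
    rw [a1, a2, a3, a4, a5, a6]
    ring
  have h2 : ∑ b : B, ∑ j : Fin 3, (H (M.c (j + 2) b) - H (M.c (j + 1) b)) * Z' (M.e j b) = 0 := by
    rw [Finset.sum_comm]
    have h3 : ∀ j : Fin 3, ∑ b : B, (H (M.c (j + 2) b) - H (M.c (j + 1) b)) * Z' (M.e j b) =
        ∑ w : W, (H (M.cw (j + 2) w) - H (M.cw (j + 1) w)) * Z' w := by
      intro j
      rw [← Equiv.sum_comp (M.e j) (fun w => (H (M.cw (j + 2) w) - H (M.cw (j + 1) w)) * Z' w)]
      apply Finset.sum_congr rfl
      intro b _
      rw [M.cw_e (j + 2) j (by revert j; decide), M.cw_e (j + 1) j (by revert j; decide)]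
    rw [Finset.sum_congr rfl (fun j _ => h3 j), Finset.sum_comm]
    apply Finset.sum_eq_zero
    intro w _
    rw [← Finset.sum_mul, Fin.sum_univ_three]
    have a1 : (0 : Fin 3) + 1 = 1 := rfl
    have a2 : (0 : Fin 3) + 2 = 2 := rfl
    have a3 : (1 : Fin 3) + 1 = 2 := rfl
    have a4 : (1 : Fin 3) + 2 = 0 := rfl
    have a5 : (2 : Fin 3) + 1 = 0 := rfl
    have a6 : (2 : Fin 3) + 2 = 1 := rfl
    rw [a1, a2, a3, a4, a5, a6]
    ring
  have h4 : ∑ b : B, ∑ j : Fin 3, (H (M.c (j + 2) b) - H (M.c (j + 1) b)) * (Z b - Z' (M.e j b)) =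
      ∑ b : B, ∑ j : Fin 3, (H (M.c (j + 2) b) - H (M.c (j + 1) b)) * Z b -
      ∑ b : B, ∑ j : Fin 3, (H (M.c (j + 2) b) - H (M.c (j + 1) b)) * Z' (M.e j b) := by
    rw [← Finset.sum_sub_distrib]
    apply Finset.sum_congr rfl
    intro b _
    rw [← Finset.sum_sub_distrib]
    apply Finset.sum_congr rfl
    intro j _
    ring
  rw [h4, h1, h2, sub_zero]

section count

variable [Fintype B] [Fintype W] (m : B → Fin 3)

theorem three_sum {j : Fin 3} (x : Fin 3 → ℕ) :
    ∑ i, x i = x j + x (j + 1) + x (j + 2) := by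
  rw [Fin.sum_univ_three]
  have a1 : (0 : Fin 3) + 1 = 1 := rfl
  have a2 : (0 : Fin 3) + 2 = 2 := rfl
  have a3 : (1 : Fin 3) + 1 = 2 := rfl
  have a4 : (1 : Fin 3) + 2 = 0 := rfl
  have a5 : (2 : Fin 3) + 1 = 0 := rfl
  have a6 : (2 : Fin 3) + 2 = 1 := rfl
  fin_cases j
  · simp only [Fin.zero_eta, a1, a2]
  · simp only [Fin.mk_one, a3, a4]; ring
  · simp only [Fin.reduceFinMk, a5, a6]; ring

open Classical in
theorem card_CB_CW (hm : Function.Bijective (fun b => M.e (m b) b)) (b0 : B) :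
    (univ.filter fun b => b ∈ CB M m b0).card = (univ.filter fun w => w ∈ CW M m b0).card := by
  have hc := clo_C (M := M) m b0
  have h1 : ∀ j, ∑ b : B, (if M.e j b ∈ CW M m b0 then 1 else 0) =
      (univ.filter fun w => w ∈ CW M m b0).card := by
    intro j
    rw [Finset.card_filter]
    exact Equiv.sum_comp (M.e j) (fun w => if w ∈ CW M m b0 then 1 else 0)
  have h2 : ∑ b : B, (if M.e (m b) b ∈ CW M m b0 then 1 else 0) =
      (univ.filter fun w => w ∈ CW M m b0).card := by
    rw [Finset.card_filter]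
    exact hm.sum_comp (fun w => if w ∈ CW M m b0 then 1 else 0)
  have h3 : ∑ b : B, ∑ j : Fin 3, (if M.e j b ∈ CW M m b0 then 1 else 0) =
      ∑ b : B, ((if M.e (m b) b ∈ CW M m b0 then 1 else 0) +
        2 * (if b ∈ CB M m b0 then 1 else 0)) := by
    apply Finset.sum_congr rfl
    intro b _
    rw [three_sum (j := m b)]
    have e1 := hc b (m b + 1) (fne1 _)
    have e2 := hc b (m b + 2) (by generalize m b = x; revert x; decide)
    by_cases hb : b ∈ CB M m b0
    · rw [if_pos hb, if_pos (e1.1 hb), if_pos (e2.1 hb)]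
    · rw [if_neg hb, if_neg (fun h => hb (e1.2 h)), if_neg (fun h => hb (e2.2 h))]
  rw [Finset.sum_comm, Finset.sum_congr rfl (fun j _ => h1 j), Finset.sum_add_distrib, h2,
    ← Finset.mul_sum, ← Finset.card_filter] at h3
  simp only [Finset.sum_const, Finset.card_univ, Fintype.card_fin, smul_eq_mul] at h3
  omega

open Classical in
theorem card_EQ (b0 : B) :
    (univ.filter fun p : B × Fin 3 => p.1 ∈ CB M m b0 ∨ M.e p.2 p.1 ∈ CW M m b0).card =
      2 * (univ.filter fun b => b ∈ CB M m b0).card +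
      (univ.filter fun b => b ∈ CB M m b0 ∨ M.e (m b) b ∈ CW M m b0).card := by
  have hc := clo_C (M := M) m b0
  rw [Finset.card_filter, Finset.card_filter, Finset.card_filter, Fintype.sum_prod_type,
    Finset.mul_sum, ← Finset.sum_add_distrib]
  apply Finset.sum_congr rfl
  intro b _
  rw [three_sum (j := m b)]
  have e1 := hc b (m b + 1) (fne1 _)
  have e2 := hc b (m b + 2) (by generalize m b = x; revert x; decide)
  by_cases hb : b ∈ CB M m b0
  · simp only [hb, true_or, if_true]
    rfl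
  · have n1 : M.e (m b + 1) b ∉ CW M m b0 := fun h => hb (e1.2 h)
    have n2 : M.e (m b + 2) b ∉ CW M m b0 := fun h => hb (e2.2 h)
    simp only [hb, n1, n2, false_or, if_false]
    ring

end count

/-- a face at a white vertex of the component is a face at a black vertex of the component -/
theorem cw_mem {m : B → Fin 3} (hm : Function.Bijective (fun b => M.e (m b) b)) (b0 : B) {w : W}
    (hw : w ∈ CW M m b0) (j : Fin 3) : ∃ b ∈ CB M m b0, M.c j b = M.cw j w := by
  obtain ⟨b1, hb1⟩ := hm.2 w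
  simp only at hb1
  obtain ⟨i, hi1, hi2⟩ := fthird j (m b1)
  refine ⟨(M.e i).symm w, ?_, M.cw_symm j i hi1 w⟩
  have h1 : i ≠ m ((M.e i).symm w) := by
    intro h
    have h2 : M.e (m ((M.e i).symm w)) ((M.e i).symm w) = M.e (m b1) b1 := by
      rw [← h, Equiv.apply_symm_apply, hb1]
    have h3 : (M.e i).symm w = b1 := hm.1 h2
    rw [h3] at h
    exact hi2 h
  rw [clo_C m b0 _ i h1, Equiv.apply_symm_apply]
  exact hw

/-- The owner of the edge of the matching at `b`. -/
def own [DecidableEq B] (M : PMap B W V) (f : B → Fin 3) (b0 : B) (k : Fin 3) (b : B) : V :=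
  if b = b0 then M.c k b0 else M.c (f b) b

theorem own_inj [DecidableEq B] {f : B → Fin 3} {b0 : B} (hf : Mat M f b0) (k : Fin 3) :
    Function.Injective (own M f b0 k) := by
  intro b b' h
  unfold own at h
  split_ifs at h with h1 h2 h2
  · rw [h1, h2]
  · exact absurd h.symm (hf.off b' h2 k)
  · exact absurd h (hf.off b h1 k)
  · exact hf.inj b b' h1 h2 h

theorem own_ne [DecidableEq B] {f : B → Fin 3} {b0 : B} (hf : Mat M f b0) {k i : Fin 3}
    (hik : i ≠ k) (b : B) : own M f b0 k b ≠ M.c i b0 := by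
  unfold own
  split_ifs with h1
  · intro h
    exact hik (M.cls _ _ _ _ h).symm
  · exact hf.off b h1 i

section main

variable [Fintype B] [Fintype W] [Fintype V]

open Classical in
/-- The rank inequality for the component of `b0`. -/
theorem rank_ineq (hC : M.Conn) {m : B → Fin 3}
    (hm : Function.Bijective (fun b => M.e (m b) b)) (b0 : B) (hne : ∃ b, b ∉ CB M m b0) (v0 : V)
    (hv0 : ∃ j, M.c j b0 = v0) :
    (univ.filter fun v => (∃ b ∈ CB M m b0, ∃ j, M.c j b = v) ∧ v ≠ v0).card +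
      (univ.filter fun b => b ∈ CB M m b0).card + (univ.filter fun w => w ∈ CW M m b0).card ≤
    (univ.filter fun p : B × Fin 3 => p.1 ∈ CB M m b0 ∨ M.e p.2 p.1 ∈ CW M m b0).card := by
  have hc := clo_C (M := M) m b0
  set PV : V → Prop := fun v => (∃ b ∈ CB M m b0, ∃ j, M.c j b = v) ∧ v ≠ v0 with hPV
  set PB : B → Prop := fun b => b ∈ CB M m b0 with hPB
  set PW : W → Prop := fun w => w ∈ CW M m b0 with hPW
  set PE : B × Fin 3 → Prop := fun p => p.1 ∈ CB M m b0 ∨ M.e p.2 p.1 ∈ CW M m b0 with hPE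
  let L : (({v // PV v} → ℚ) × ({b // PB b} → ℚ) × ({w // PW w} → ℚ)) →ₗ[ℚ] ({p // PE p} → ℚ) :=
    { toFun := fun x p => ex PV x.1 (M.c (p.1.2 + 2) p.1.1) - ex PV x.1 (M.c (p.1.2 + 1) p.1.1) +
        (ex PB x.2.1 p.1.1 - ex PW x.2.2 (M.e p.1.2 p.1.1))
      map_add' := by
        intro x y
        funext p
        simp only [Prod.fst_add, Prod.snd_add, ex_add, Pi.add_apply]
        ring
      map_smul' := by
        intro r x
        funext p
        simp only [Prod.smul_fst, Prod.smul_snd, ex_smul, RingHom.id_apply, Pi.smul_apply,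
          smul_eq_mul]
        ring }
  have hL : Function.Injective L := by
    rw [← LinearMap.ker_eq_bot, LinearMap.ker_eq_bot']
    rintro ⟨x, y, z⟩ hx
    set H : V → ℚ := ex PV x with hH
    set Z : B → ℚ := ex PB y with hZ
    set Z' : W → ℚ := ex PW z with hZ'
    have h1 : ∀ b j, PE (b, j) → H (M.c (j + 2) b) - H (M.c (j + 1) b) + (Z b - Z' (M.e j b)) = 0 :=
      fun b j h => congrFun hx ⟨(b, j), h⟩
    have h2 : ∀ b j, ¬ PE (b, j) → Z b - Z' (M.e j b) = 0 := by
      intro b j h
      have h3 : b ∉ CB M m b0 := fun h4 => h (Or.inl h4)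
      have h4 : M.e j b ∉ CW M m b0 := fun h4 => h (Or.inr h4)
      rw [hZ, hZ', ex_not _ h3, ex_not _ h4, sub_zero]
    have h3 := orth (M := M) H Z Z'
    have h4 : ∑ b : B, ∑ j : Fin 3, (Z b - Z' (M.e j b)) ^ 2 = 0 := by
      rw [← neg_eq_zero, ← h3, ← Finset.sum_neg_distrib]
      apply Finset.sum_congr rfl
      intro b _
      rw [← Finset.sum_neg_distrib]
      apply Finset.sum_congr rfl
      intro j _
      by_cases hp : PE (b, j)
      · have h5 := h1 b j hp
        have h6 : H (M.c (j + 2) b) - H (M.c (j + 1) b) = - (Z b - Z' (M.e j b)) := by linarith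
        rw [h6]; ring
      · rw [h2 b j hp]; ring
    have h5 : ∀ b j, Z b = Z' (M.e j b) := by
      intro b j
      have h6 : ∑ j : Fin 3, (Z b - Z' (M.e j b)) ^ 2 = 0 :=
        (Finset.sum_eq_zero_iff_of_nonneg (fun b _ =>
          Finset.sum_nonneg (fun j _ => sq_nonneg _))).1 h4 b (mem_univ _)
      have h7 : (Z b - Z' (M.e j b)) ^ 2 = 0 :=
        (Finset.sum_eq_zero_iff_of_nonneg (fun j _ => sq_nonneg _)).1 h6 j (mem_univ _)
      have h8 := pow_eq_zero_iff (two_ne_zero) |>.1 h7
      linarith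
    have h6 : ∀ w w', Z' w = Z' w' := const_of_black hC Z' fun b i j => by rw [← h5, ← h5]
    obtain ⟨b1, hb1⟩ := hne
    have h7 : ∀ w, Z' w = 0 := by
      intro w
      rw [h6 w (M.e (m b1 + 1) b1), hZ', ex_not]
      exact fun h => hb1 ((hc b1 _ (fne1 _)).2 h)
    have h8 : ∀ b, Z b = 0 := fun b => by rw [h5 b 0, h7]
    have h9 : ∀ b j, PE (b, j) → H (M.c (j + 2) b) = H (M.c (j + 1) b) := by
      intro b j h
      have := h1 b j h
      rw [h7, h8] at this
      linarith
    have hv0' : H v0 = 0 := by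
      rw [hH, ex_not]
      exact fun h => h.2 rfl
    have hblack : ∀ b ∈ CB M m b0, ∀ i j, H (M.c i b) = H (M.c j b) := by
      intro b hb
      have e0 := h9 b 0 (Or.inl hb)
      have e1 := h9 b 1 (Or.inl hb)
      have a1 : (0 : Fin 3) + 1 = 1 := rfl
      have a2 : (0 : Fin 3) + 2 = 2 := rfl
      have a3 : (1 : Fin 3) + 1 = 2 := rfl
      have a4 : (1 : Fin 3) + 2 = 0 := rfl
      rw [a1, a2] at e0
      rw [a3, a4] at e1
      have h3 : ∀ i, H (M.c i b) = H (M.c 2 b) := by
        intro i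
        fin_cases i
        · exact e1
        · exact e0.symm
        · rfl
      intro i j
      rw [h3 i, h3 j]
    have hwhite : ∀ w ∈ CW M m b0, ∀ i j, H (M.cw i w) = H (M.cw j w) := by
      intro w hw
      have h10 : ∀ k : Fin 3, H (M.cw (k + 2) w) = H (M.cw (k + 1) w) := by
        intro k
        have h11 := h9 ((M.e k).symm w) k (Or.inr (by simpa using hw))
        rw [M.cw_symm (k + 2) k (fne2 k).symm, M.cw_symm (k + 1) k (fne1 k).symm] at h11
        exact h11
      have e0 := h10 0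
      have e1 := h10 1
      have a1 : (0 : Fin 3) + 1 = 1 := rfl
      have a2 : (0 : Fin 3) + 2 = 2 := rfl
      have a3 : (1 : Fin 3) + 1 = 2 := rfl
      have a4 : (1 : Fin 3) + 2 = 0 := rfl
      rw [a1, a2] at e0
      rw [a3, a4] at e1
      have h3 : ∀ i, H (M.cw i w) = H (M.cw 2 w) := by
        intro i
        fin_cases i
        · exact e1
        · exact e0.symm
        · rfl
      intro i j
      rw [h3 i, h3 j]
    obtain ⟨j0, hj0⟩ := hv0
    have hall : ∀ b ∈ CB M m b0, ∀ i, H (M.c i b) = 0 := by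
      intro b hb
      have hclo : Clo M m {b | b ∈ CB M m b0 ∧ ∀ i, H (M.c i b) = 0}
          {w | w ∈ CW M m b0 ∧ ∀ i, H (M.cw i w) = 0} := by
        intro b j hj
        constructor
        · rintro ⟨p, q⟩
          have hw := (hc b j hj).1 p
          refine ⟨hw, fun i => ?_⟩
          rw [hwhite _ hw i (j + 1), M.cw_e (j + 1) j (fne1 j).symm, q]
        · rintro ⟨p, q⟩
          have hb := (hc b j hj).2 p
          refine ⟨hb, fun i => ?_⟩
          rw [hblack _ hb i (j + 1), ← M.cw_e (j + 1) j (fne1 j).symm, q]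
      exact (hb _ _ hclo ⟨mem_CB m b0, fun i => by
        rw [hblack b0 (mem_CB m b0) i j0, hj0, hv0']⟩).2
    refine Prod.ext ?_ (Prod.ext ?_ ?_)
    · funext v
      obtain ⟨⟨b, hb, j, hj⟩, hv⟩ := v.2
      have h10 := hall b hb j
      rw [hj, hH, ex_of x v.2] at h10
      exact h10
    · funext b
      have h10 := h8 b
      rw [hZ, ex_of y b.2] at h10
      exact h10
    · funext w
      have h10 := h7 w
      rw [hZ', ex_of z w.2] at h10
      exact h10
  have h := LinearMap.finrank_le_finrank_of_injective hL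
  rw [Module.finrank_prod, Module.finrank_prod, Module.finrank_fintype_fun_eq_card,
    Module.finrank_fintype_fun_eq_card, Module.finrank_fintype_fun_eq_card,
    Module.finrank_fintype_fun_eq_card, Fintype.card_subtype, Fintype.card_subtype,
    Fintype.card_subtype, Fintype.card_subtype] at h
  rw [add_assoc]
  exact h

/-- **Step 1.** The complement of the perfect matching is connected. -/
theorem comp_all (hS : M.Sph) {f : B → Fin 3} {b0 : B} (hf : Mat M f b0) {m : B → Fin 3}
    (hmf : ∀ b, b ≠ b0 → m b ≠ f b) (hm : Function.Bijective (fun b => M.e (m b) b)) :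
    ∀ b, b ∈ CB M m b0 := by
  classical
  by_contra hcon
  push Not at hcon
  set i := m b0 with hi
  have hr := rank_ineq hS.conn hm b0 hcon (M.c i b0) ⟨i, rfl⟩
  rw [card_EQ, ← card_CB_CW m hm b0] at hr
  -- the owners
  have hmem : ∀ b, (b ∈ CB M m b0 ∨ M.e (m b) b ∈ CW M m b0) →
      ∃ b' ∈ CB M m b0, ∃ j, M.c j b' = own M f b0 (i + 1) b := by
    intro b hb
    unfold own
    split_ifs with h1
    · exact ⟨b0, mem_CB m b0, _, rfl⟩
    · rcases hb with hb | hb
      · exact ⟨b, hb, _, rfl⟩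
      · obtain ⟨b', hb', h2⟩ := cw_mem hm b0 hb (f b)
        refine ⟨b', hb', f b, ?_⟩
        rw [h2, M.cw_e (f b) (m b) (hmf b h1)]
  have hcard : (univ.filter fun b => b ∈ CB M m b0 ∨ M.e (m b) b ∈ CW M m b0).card + 1 ≤
      (univ.filter fun v => (∃ b ∈ CB M m b0, ∃ j, M.c j b = v) ∧ v ≠ M.c i b0).card := by
    have h1 : M.c (i + 2) b0 ∉ (univ.filter fun b => b ∈ CB M m b0 ∨
        M.e (m b) b ∈ CW M m b0).image (own M f b0 (i + 1)) := by
      rw [Finset.mem_image]
      rintro ⟨b, -, hb⟩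
      exact own_ne hf (fne12 i).symm b hb
    have h2 : (insert (M.c (i + 2) b0) ((univ.filter fun b => b ∈ CB M m b0 ∨
        M.e (m b) b ∈ CW M m b0).image (own M f b0 (i + 1)))).card =
        (univ.filter fun b => b ∈ CB M m b0 ∨ M.e (m b) b ∈ CW M m b0).card + 1 := by
      rw [Finset.card_insert_of_notMem h1, Finset.card_image_of_injective _ (own_inj hf _)]
    rw [← h2]
    apply Finset.card_le_card
    intro v hv
    rw [Finset.mem_insert, Finset.mem_image] at hv
    rw [Finset.mem_filter]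
    refine ⟨mem_univ _, ?_⟩
    rcases hv with rfl | ⟨b, hb, rfl⟩
    · exact ⟨⟨b0, mem_CB m b0, _, rfl⟩, fun h => fne2 i (M.cls _ _ _ _ h)⟩
    · exact ⟨hmem b (Finset.mem_filter.1 hb).2, own_ne hf (fne1 i).symm b⟩
  omega

/-- **Row L6.** If `f` is a good matching then for every colour `i` the cubic graph has a perfect
matching `m` which contains the edge of colour `i` at `b0` and whose complement is connected. -/
theorem step1 (hS : M.Sph) {f : B → Fin 3} {b0 : B} (hf : Mat M f b0) (hg : Good M f b0)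
    (i : Fin 3) : ∃ m : B → Fin 3, m b0 = i ∧ Function.Bijective (fun b => M.e (m b) b) ∧
      ∀ (S : Set B) (T : Set W), (∀ b j, j ≠ m b → (b ∈ S ↔ M.e j b ∈ T)) → b0 ∈ S →
        (∀ b, b ∈ S) ∧ ∀ w, w ∈ T := by
  obtain ⟨m, hm0, hmf, hm⟩ := exists_match hS hg i
  have hall := comp_all hS hf hmf hm
  refine ⟨m, hm0, hm, ?_⟩
  intro S T hc h0
  refine ⟨fun b => hall b S T hc h0, fun w => ?_⟩
  obtain ⟨b1, hb1⟩ := hm.2 w
  simp only at hb1
  set j := m b1 + 1 with hj
  have h1 : j ≠ m ((M.e j).symm w) := by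
    intro h
    have h2 : M.e (m ((M.e j).symm w)) ((M.e j).symm w) = M.e (m b1) b1 := by
      rw [← h, Equiv.apply_symm_apply, hb1]
    have h3 : (M.e j).symm w = b1 := hm.1 h2
    rw [h3] at h
    exact fne1 _ (hj ▸ h)
  have h2 := (hc _ _ h1).1 (hall _ S T hc h0)
  rwa [Equiv.apply_symm_apply] at h2

end main

end Vale.Agent.P039.H744
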