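import Mathlib.Data.Fintype.Card
import Mathlib.Data.Fintype.EquivFin
import Mathlib.Data.Set.Basic
import Mathlib.Order.Lattice
import Mathlib.Data.Finset.Max
import Mathlib.Tactic

/-! Orientation of trees, leaves, depth of acyclic functional graphs. -/

namespace Vale.Agent.P039.H744

open Finset

variable {U E : Type}

section orient

variable (a b : E → U) (Rt : U → Prop)

/-- the vertices at distance at most `n` from the roots -/
def ball : ℕ → Set U
  | 0 => {u | Rt u}
  | n + 1 => {u | u ∈ ball n ∨ ∃ e, (a e = u ∧ b e ∈ ball n) ∨ (b e = u ∧ a e ∈ ball n)}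

theorem ball_cover (hconn : ∀ K : Set U, K.Nonempty → (∀ u ∈ K, ¬ Rt u) →
    ∃ e, ¬ (a e ∈ K ↔ b e ∈ K)) (u : U) : ∃ n, u ∈ ball a b Rt n := by
  by_contra hu
  have hK : (∀ v ∈ {v : U | ∀ n, v ∉ ball a b Rt n}, ¬ Rt v) := fun v hv hr => hv 0 hr
  obtain ⟨e, he⟩ := hconn {v | ∀ n, v ∉ ball a b Rt n} ⟨u, fun n hn => hu ⟨n, hn⟩⟩ hK
  apply he
  constructor
  · intro h n hn
    exact h (n + 1) (Or.inr ⟨e, Or.inl ⟨rfl, hn⟩⟩)
  · intro h n hn
    exact h (n + 1) (Or.inr ⟨e, Or.inr ⟨rfl, hn⟩⟩)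

theorem orient [Finite U] [Finite E] (hcard : Nat.card E = Nat.card {u // ¬ Rt u})
    (hconn : ∀ K : Set U, K.Nonempty → (∀ u ∈ K, ¬ Rt u) → ∃ e, ¬ (a e ∈ K ↔ b e ∈ K)) :
    ∃ (t h : E → U) (d : U → ℕ),
      (∀ e, (t e = a e ∧ h e = b e) ∨ (t e = b e ∧ h e = a e)) ∧ (∀ e, d (h e) < d (t e)) ∧
      (∀ e, ¬ Rt (t e)) ∧ Function.Injective t ∧ (∀ u, ¬ Rt u → ∃ e, t e = u) := by
  classical
  have hc := ball_cover a b Rt hconn
  set d : U → ℕ := fun u => Nat.find (hc u) with hd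
  have hle : ∀ u n, u ∈ ball a b Rt n → d u ≤ n := fun u n h => Nat.find_min' (hc u) h
  have key : ∀ u : {u // ¬ Rt u}, ∃ e, (a e = u ∧ d (b e) < d u) ∨ (b e = u ∧ d (a e) < d u) := by
    rintro ⟨u, hu⟩
    have h1 : u ∈ ball a b Rt (d u) := Nat.find_spec (hc u)
    rcases Nat.eq_zero_or_pos (d u) with h0 | h0
    · rw [h0] at h1
      exact absurd h1 hu
    · obtain ⟨n, hn⟩ := Nat.exists_eq_succ_of_ne_zero h0.ne'
      rw [hn] at h1
      rcases h1 with h1 | ⟨e, he⟩
      · have := hle u n h1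
        omega
      · refine ⟨e, ?_⟩
        rcases he with ⟨h2, h3⟩ | ⟨h2, h3⟩
        · exact Or.inl ⟨h2, by have := hle _ n h3; simp only; omega⟩
        · exact Or.inr ⟨h2, by have := hle _ n h3; simp only; omega⟩
  choose τ hτ using key
  have hinj : Function.Injective τ := by
    intro u u' huu
    have h1 := hτ u
    have h2 := hτ u'
    rw [← huu] at h2
    apply Subtype.ext
    rcases h1 with ⟨p, q⟩ | ⟨p, q⟩ <;> rcases h2 with ⟨p', q'⟩ | ⟨p', q'⟩
    · rw [← p, ← p']
    · exfalso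
      rw [← p] at q; rw [← p'] at q'; omega
    · exfalso
      rw [← p] at q; rw [← p'] at q'; omega
    · rw [← p, ← p']
  have hbij : Function.Bijective τ := hinj.bijective_of_nat_card_le hcard.le
  set T := Equiv.ofBijective τ hbij with hT
  have hh : ∀ e : E, ∃ h : U, (((T.symm e : U) = a e ∧ h = b e) ∨
      ((T.symm e : U) = b e ∧ h = a e)) ∧ d h < d (T.symm e : U) := by
    intro e
    have h1 := hτ (T.symm e)
    have h2 : τ (T.symm e) = e := T.apply_symm_apply e
    rw [h2] at h1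
    rcases h1 with ⟨p, q⟩ | ⟨p, q⟩
    · exact ⟨b e, Or.inl ⟨p.symm, rfl⟩, q⟩
    · exact ⟨a e, Or.inr ⟨p.symm, rfl⟩, q⟩
  choose h hh1 hh2 using hh
  refine ⟨fun e => (T.symm e : U), h, d, hh1, hh2, fun e => (T.symm e).2, ?_, ?_⟩
  · intro e e' hee
    exact T.symm.injective (Subtype.ext hee)
  · intro u hu
    exact ⟨T ⟨u, hu⟩, by simp⟩

end orient

/-- A set of edges of a forest has a vertex of degree one. -/
theorem leaf (t h : E → U) (d : U → ℕ) (hd : ∀ e, d (h e) < d (t e))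
    (ht : Function.Injective t) (A : Finset E) (hA : A.Nonempty) :
    ∃ e ∈ A, ∀ e' ∈ A, (t e' = t e ∨ h e' = t e) → e' = e := by
  obtain ⟨e, he, hmax⟩ := A.exists_max_image (fun e => d (t e)) hA
  refine ⟨e, he, ?_⟩
  rintro e' he' (h1 | h1)
  · exact ht h1
  · have h2 := hd e'
    rw [h1] at h2
    have h3 := hmax e' he'
    omega

/-- the vertices from which a vertex without exit is reached in at most `n` steps -/
def lev (t h : E → U) : ℕ → Set U
  | 0 => {u | ∀ e, t e ≠ u}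
  | n + 1 => {u | u ∈ lev t h n ∨ ∃ e, t e = u ∧ h e ∈ lev t h n}

/-- An acyclic functional graph has a depth function. -/
theorem depth (t h : E → U) (hac : ∀ K : Set E, K.Nonempty →
    ¬ ∀ e ∈ K, ∃ e' ∈ K, h e = t e') (ht : Function.Injective t) :
    ∃ d : U → ℕ, ∀ e, d (h e) < d (t e) := by
  classical
  have hc : ∀ u, ∃ n, u ∈ lev t h n := by
    by_contra hcon
    push Not at hcon
    obtain ⟨u, hu⟩ := hcon
    have hu0 : ∃ e, t e = u := by
      by_contra h0
      push Not at h0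
      exact hu 0 h0
    obtain ⟨e, he⟩ := hu0
    apply hac {e | ∀ n, t e ∉ lev t h n} ⟨e, fun n => he ▸ hu n⟩
    intro e he
    have h1 : ∀ n, h e ∉ lev t h n := fun n hn => he (n + 1) (Or.inr ⟨e, rfl, hn⟩)
    have h2 : ∃ e', t e' = h e := by
      by_contra h0
      push Not at h0
      exact h1 0 h0
    obtain ⟨e', he'⟩ := h2
    exact ⟨e', fun n hn => h1 n (he' ▸ hn), he'.symm⟩
  refine ⟨fun u : U => @Nat.find (fun n => u ∈ lev t h n) (Classical.decPred _) (hc u), ?_⟩
  intro e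
  have h1 := @Nat.find_spec (fun n => t e ∈ lev t h n) (Classical.decPred _) (hc (t e))
  show @Nat.find (fun n => h e ∈ lev t h n) (Classical.decPred _) (hc (h e)) <
    @Nat.find (fun n => t e ∈ lev t h n) (Classical.decPred _) (hc (t e))
  generalize hm : @Nat.find (fun n => t e ∈ lev t h n) (Classical.decPred _) (hc (t e)) = m at h1 ⊢
  cases m with
  | zero => exact absurd rfl (h1 e)
  | succ n =>
    rcases h1 with h1 | ⟨e', h2, h3⟩
    · have := @Nat.find_min' (fun n => t e ∈ lev t h n) (Classical.decPred _) (hc (t e)) _ h1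
      omega
    · have h4 : e' = e := ht h2
      subst h4
      have := @Nat.find_min' (fun n => h e' ∈ lev t h n) (Classical.decPred _) (hc (h e')) _ h3
      omega

end Vale.Agent.P039.H744
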