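import Vale.Agent.P039.Bn.Defs
import Vale.Agent.P039.H744.Orient

/-! Step 1, first half: a good matching `f` gives a perfect matching of the cubic graph. -/

namespace Vale.Agent.P039.H744

open Finset Vale.Agent.P039.Bn

variable {B W V : Type} (M : PMap B W V)

/-- `f` is a matching of the black triangles other than `b0` with the vertices not on `b0`. -/
structure Mat (f : B → Fin 3) (b0 : B) : Prop where
  off : ∀ b, b ≠ b0 → ∀ j, M.c (f b) b ≠ M.c j b0
  inj : ∀ b b', b ≠ b0 → b' ≠ b0 → M.c (f b) b = M.c (f b') b' → b = b'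

/-- `f` is good: the graph whose edges join the two other vertices of the triangles other than
`b0` is connected to the vertices of `b0`. -/
def Good (f : B → Fin 3) (b0 : B) : Prop :=
  ∀ K : Set V, K.Nonempty → (∀ v ∈ K, ∀ j, v ≠ M.c j b0) →
    ∃ b, b ≠ b0 ∧ ¬ (M.c (f b + 1) b ∈ K ↔ M.c (f b + 2) b ∈ K)

theorem z2 (x : ZMod 2) : x + x = 0 := by revert x; decide

theorem z2_of_ne {x y : ZMod 2} (h : x ≠ y) : x + y = 1 := by revert x y; decide

theorem z2_eq {x y : ZMod 2} (h : x + y = 0) : x = y := by revert x y; decide

/-- The sum over a face of the jumps of a function on the white triangles vanishes. -/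
theorem face_sum [Fintype B] [DecidableEq V] (n : W → ZMod 2) (v : V) (j : Fin 3) :
    ∑ b : B, (if M.c j b = v then n (M.e (j + 1) b) + n (M.e (j + 2) b) else 0) = 0 := by
  have h1 : ∑ b : B, (if M.c j b = v then n (M.e (j + 1) b) else 0) =
      ∑ b : B, (if M.c j b = v then n (M.e (j + 2) b) else 0) := by
    rw [← Equiv.sum_comp (M.rho j) (fun b => if M.c j b = v then n (M.e (j + 1) b) else 0)]
    apply Finset.sum_congr rfl
    intro b _
    rw [M.c_rho, M.e_rho]
  have h2 : ∑ b : B, (if M.c j b = v then n (M.e (j + 1) b) + n (M.e (j + 2) b) else 0) =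
      ∑ b : B, (if M.c j b = v then n (M.e (j + 1) b) else 0) +
      ∑ b : B, (if M.c j b = v then n (M.e (j + 2) b) else 0) := by
    rw [← Finset.sum_add_distrib]
    apply Finset.sum_congr rfl
    intro b _
    split_ifs <;> simp
  rw [h2, h1]
  exact z2 _

/-- the vertices of `b0` are different -/
theorem c_inj (b0 : B) : Function.Injective fun j => M.c j b0 := fun i j h => M.cls i j b0 b0 h

theorem card_nonroot [Fintype B] [Fintype V] (hS : M.Sph) (b0 : B) :
    Nat.card {b : B // b ≠ b0} = Nat.card {v : V // ¬ ∃ j, v = M.c j b0} := by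
  classical
  have h1 : Nat.card {b : B // b ≠ b0} = Fintype.card B - 1 := by
    rw [Nat.card_eq_fintype_card, Fintype.card_subtype_compl (fun b => b = b0),
      Fintype.card_subtype_eq]
  have h2 : Fintype.card {v : V // ∃ j, v = M.c j b0} = 3 := by
    have : Fintype.card (Fin 3) = Fintype.card {v : V // ∃ j, v = M.c j b0} := by
      apply Fintype.card_of_bijective (f := fun j => ⟨M.c j b0, j, rfl⟩)
      constructor
      · intro i j h
        exact c_inj M b0 (Subtype.ext_iff.1 h)
      · rintro ⟨v, j, rfl⟩
        exact ⟨j, rfl⟩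
    rw [← this]; rfl
  have h3 : Nat.card {v : V // ¬ ∃ j, v = M.c j b0} = Fintype.card V - 3 := by
    rw [Nat.card_eq_fintype_card, Fintype.card_subtype_compl (fun v => ∃ j, v = M.c j b0), h2]
  have h4 := hS.card
  have h5 : 0 < Fintype.card B := Fintype.card_pos_iff.2 ⟨b0⟩
  omega

variable {M}

/-- constant along the triangles, hence constant -/
theorem const_of_black (hC : M.Conn) {α : Type} (n : W → α) (hn : ∀ b i j, n (M.e i b) = n (M.e j b)) :
    ∀ w w', n w = n w' := by
  have h1 : ∀ b b', n (M.e 0 b) = n (M.e 0 b') := by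
    intro b b'
    have h2 := hC b b'
    induction h2 with
    | rel x y h =>
      obtain ⟨j, h⟩ := h
      have h3 := M.exact j x y h
      induction h3 with
      | rel x y h4 => rw [hn y 0 (j + 1), h4, hn x (j + 2) 0]
      | refl x => rfl
      | symm x y _ ih => exact (ih (by rw [h])).symm
      | trans x y z h5 h6 ih1 ih2 =>
        exact (ih1 (M.c_of_eqvGen h5)).trans (ih2 (M.c_of_eqvGen h6))
    | refl x => rfl
    | symm x y _ ih => exact ih.symm
    | trans x y z _ _ ih1 ih2 => exact ih1.trans ih2
  intro w w'
  have := h1 ((M.e 0).symm w) ((M.e 0).symm w')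
  simpa using this

/-- (1) A good matching: functions constant along the dual edges are constant. -/
theorem gamma_const [Fintype B] [Fintype V] (hS : M.Sph) {f : B → Fin 3} {b0 : B}
    (hg : Good M f b0) (n : W → ZMod 2)
    (hn : ∀ b, b ≠ b0 → n (M.e (f b + 1) b) = n (M.e (f b + 2) b)) : ∀ w w', n w = n w' := by
  classical
  obtain ⟨t, h, d, hth, hd, hRt, htinj, -⟩ := orient (U := V) (E := {b : B // b ≠ b0})
    (fun b => M.c (f b + 1) b) (fun b => M.c (f b + 2) b) (fun v => ∃ j, v = M.c j b0)
    (card_nonroot M hS b0) (by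
      intro K hK hr
      obtain ⟨b, hb, hb'⟩ := hg K hK (fun v hv j hvj => hr v hv ⟨j, hvj⟩)
      exact ⟨⟨b, hb⟩, hb'⟩)
  -- the jumps
  have hA : ∀ b : {b : B // b ≠ b0}, n (M.e (f b) b) = n (M.e (f b + 1) b) := by
    by_contra hcon
    push Not at hcon
    obtain ⟨b1, hb1⟩ := hcon
    obtain ⟨e, heA, hu⟩ := leaf t h d hd htinj
      (univ.filter fun b : {b : B // b ≠ b0} => n (M.e (f b) b) ≠ n (M.e (f b + 1) b))
      ⟨b1, by simpa using hb1⟩
    have he : n (M.e (f e) e) ≠ n (M.e (f e + 1) e) := by simpa using heA
    -- the class of the tail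
    have key : ∀ j : Fin 3, (j = f e + 1 ∨ j = f e + 2) → M.c j e = t e → False := by
      intro j hj hjt
      have hs := face_sum M n (t e) j
      have hterm : ∀ b : B, b ≠ (e : B) →
          (if M.c j b = t e then n (M.e (j + 1) b) + n (M.e (j + 2) b) else 0) = 0 := by
        intro b hbe
        split_ifs with hb
        · by_cases hb0 : b = b0
          · exfalso
            subst hb0
            exact hRt e ⟨j, hb.symm⟩
          · have hn' := hn b hb0
            by_cases hA' : n (M.e (f b) b) = n (M.e (f b + 1) b)
            · rcases fcase j (f b) with rfl | rfl | rfl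
              · rw [hn']; exact z2 _
              · rw [f11, f12, ← hn', hA']; exact z2 _
              · rw [f21, f22, hA']; exact z2 _
            · rcases fcase j (f b) with rfl | rfl | rfl
              · rw [hn']; exact z2 _
              · exfalso
                apply hbe
                have := hu ⟨b, hb0⟩ (by simpa using hA') (by
                  rcases hth ⟨b, hb0⟩ with ⟨p, q⟩ | ⟨p, q⟩
                  · left; rw [p]; exact hb
                  · right; rw [q]; exact hb)
                exact congrArg Subtype.val this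
              · exfalso
                apply hbe
                have := hu ⟨b, hb0⟩ (by simpa using hA') (by
                  rcases hth ⟨b, hb0⟩ with ⟨p, q⟩ | ⟨p, q⟩
                  · right; rw [q]; exact hb
                  · left; rw [p]; exact hb)
                exact congrArg Subtype.val this
        · rfl
      rw [Finset.sum_eq_single (e : B) (fun b _ hb => hterm b hb) (by simp), if_pos hjt] at hs
      have hne := hn e e.2
      rcases hj with rfl | rfl
      · rw [f11, f12, ← hne] at hs
        exact he (z2_eq hs).symm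
      · rw [f21, f22] at hs
        exact he (z2_eq hs)
    rcases hth e with ⟨p, -⟩ | ⟨p, -⟩
    · exact key _ (Or.inl rfl) p.symm
    · exact key _ (Or.inr rfl) p.symm
  have hB : ∀ b, b ≠ b0 → ∀ i j, n (M.e i b) = n (M.e j b) := by
    intro b hb
    have h1 := hA ⟨b, hb⟩
    have h2 := hn b hb
    have h3 : ∀ i, n (M.e i b) = n (M.e (f b) b) := by
      intro i
      rcases fcase i (f b) with rfl | rfl | rfl
      · rfl
      · exact h1.symm
      · exact h2.symm.trans h1.symm
    intro i j
    rw [h3 i, h3 j]
  have hB0 : ∀ j, n (M.e (j + 1) b0) = n (M.e (j + 2) b0) := by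
    intro j
    have hs := face_sum M n (M.c j b0) j
    rw [Finset.sum_eq_single b0 _ (by simp), if_pos rfl] at hs
    · exact z2_eq hs
    · intro b _ hb
      split_ifs
      · rw [hB b hb (j + 1) (j + 2)]; exact z2 _
      · rfl
  apply const_of_black hS.conn
  intro b
  by_cases hb : b = b0
  · subst hb
    have h3 : ∀ i, n (M.e i b) = n (M.e 0 b) := by
      have e0 := hB0 0
      have e1 := hB0 1
      have e2 := hB0 2
      have a1 : (0 : Fin 3) + 1 = 1 := rfl
      have a2 : (0 : Fin 3) + 2 = 2 := rfl
      have a3 : (1 : Fin 3) + 1 = 2 := rfl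
      have a4 : (1 : Fin 3) + 2 = 0 := rfl
      rw [a1, a2] at e0
      rw [a3, a4] at e1
      intro i
      fin_cases i
      · rfl
      · exact e0.trans e1
      · exact e1
    intro i j
    rw [h3 i, h3 j]
  · exact hB b hb

/-- (2) A good matching and a colour `j0` give a perfect matching of the cubic graph which
contains the edge of colour `j0` at `b0`. -/
theorem exists_match [Fintype B] [Fintype V] (hS : M.Sph) {f : B → Fin 3} {b0 : B}
    (hg : Good M f b0) (j0 : Fin 3) :
    ∃ ga : B → Fin 3, ga b0 = j0 ∧ (∀ b, b ≠ b0 → ga b ≠ f b) ∧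
      Function.Bijective (fun b => M.e (ga b) b) := by
  classical
  haveI : Fintype W := Fintype.ofEquiv B (M.e 0)
  have hcard : Nat.card {b : B // b ≠ b0} = Nat.card {w : W // ¬ w = M.e j0 b0} := by
    apply Nat.card_congr
    exact (M.e j0).subtypeEquiv fun b => by simp
  obtain ⟨t, h, d, hth, hd, hRt, htinj, -⟩ := orient (U := W) (E := {b : B // b ≠ b0})
    (fun b => M.e (f b + 1) b) (fun b => M.e (f b + 2) b) (fun w => w = M.e j0 b0)
    hcard (by
      intro K hK hr
      by_contra hcon
      push Not at hcon
      have hc := gamma_const hS hg (fun w => if w ∈ K then (1 : ZMod 2) else 0) (by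
        intro b hb
        have := hcon ⟨b, hb⟩
        simp only at this ⊢
        by_cases h1 : M.e (f b + 1) b ∈ K
        · rw [if_pos h1, if_pos (this.1 h1)]
        · rw [if_neg h1, if_neg (fun h2 => h1 (this.2 h2))])
      obtain ⟨w, hw⟩ := hK
      have h2 := hc w (M.e j0 b0)
      simp only [hw, if_true] at h2
      by_cases h3 : M.e j0 b0 ∈ K
      · exact hr _ h3 rfl
      · rw [if_neg h3] at h2
        exact one_ne_zero h2)
  let ga : B → Fin 3 := fun b => if hb : b = b0 then j0 else
    (if t ⟨b, hb⟩ = M.e (f b + 1) b then f b + 1 else f b + 2)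
  have ga0 : ga b0 = j0 := by simp [ga]
  have ga1 : ∀ b (hb : b ≠ b0), M.e (ga b) b = t ⟨b, hb⟩ ∧ ga b ≠ f b := by
    intro b hb
    simp only [ga, dif_neg hb]
    split_ifs with h1
    · exact ⟨h1.symm, fne1 _⟩
    · rcases hth ⟨b, hb⟩ with ⟨p, -⟩ | ⟨p, -⟩
      · exact absurd p h1
      · exact ⟨p.symm, by
          intro h2
          rcases fcase (f b + 2) (f b) with h3 | h3 | h3
          · revert h3; generalize f b = x; revert x; decide
          · revert h3; generalize f b = x; revert x; decide
          · revert h2; generalize f b = x; revert x; decide⟩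
  refine ⟨ga, ga0, fun b hb => (ga1 b hb).2, ?_⟩
  have hinj : Function.Injective (fun b => M.e (ga b) b) := by
    intro b b' hbb
    simp only at hbb
    by_cases hb : b = b0
    · by_cases hb' : b' = b0
      · rw [hb, hb']
      · exfalso
        rw [(ga1 b' hb').1, hb, ga0] at hbb
        exact hRt _ hbb.symm
    · by_cases hb' : b' = b0
      · exfalso
        rw [(ga1 b hb).1, hb', ga0] at hbb
        exact hRt _ hbb
      · rw [(ga1 b hb).1, (ga1 b' hb').1] at hbb
        exact congrArg Subtype.val (htinj hbb)
  exact hinj.bijective_of_nat_card_le (Nat.card_congr (M.e 0)).symm.le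

end Vale.Agent.P039.H744
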